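import Vale.Agent.GAD.Defs

/-!
P358: exact statements of all parts (`sorry` stubs; the final hand-in does not import this file).
-/

namespace Vale.Agent.GAD

open Matrix
open scoped ComplexOrder

section basics

variable {ι κ : Type} [Fintype ι] [DecidableEq ι] [Fintype κ] [DecidableEq κ]

/-! ### Part A: basic facts on `H` (file `PartA.lean`) -/

theorem H_eq_eigenvalues {A : Matrix ι ι ℂ} (hA : A.IsHermitian) :
    H A = ∑ i, Real.negMulLog (hA.eigenvalues i) := sorry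

/-- `charpoly_mul_comm'`, `Polynomial.roots` of `X ^ n * p`. -/
theorem H_mul_comm (M : Matrix ι κ ℂ) (N : Matrix κ ι ℂ) : H (M * N) = H (N * M) := sorry

theorem H_reindex (e : κ ≃ ι) (A : Matrix ι ι ℂ) : H (A.submatrix e e) = H A := sorry

theorem H_unitary {U : Matrix ι ι ℂ} (hU : Uᴴ * U = 1) (A : Matrix ι ι ℂ) :
    H (U * A * Uᴴ) = H A := sorry

theorem H_fromBlocks (A : Matrix ι ι ℂ) (D : Matrix κ κ ℂ) :
    H (fromBlocks A 0 0 D) = H A + H D := sorry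

theorem H_diagonal (d : ι → ℝ) :
    H (diagonal fun i => (d i : ℂ)) = ∑ i, Real.negMulLog (d i) := sorry

theorem H_zero : H (0 : Matrix ι ι ℂ) = 0 := sorry

theorem H_smul {t : ℝ} (ht : 0 ≤ t) {A : Matrix ι ι ℂ} (hA : A.PosSemidef) :
    H ((t : ℂ) • A) = t * H A + Real.negMulLog t * A.trace.re := sorry

theorem H_fin_two {A : Matrix (Fin 2) (Fin 2) ℂ} (hA : A.PosSemidef) :
    H A = H2 A.trace.re A.det.re := sorry

/-- determinant through the eigenvalues -/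
theorem det_add_eigenvalues {A : Matrix ι ι ℂ} (hA : A.IsHermitian) (y : ℝ) :
    ((y : ℂ) • (1 : Matrix ι ι ℂ) + A).det = ((∏ i, (y + hA.eigenvalues i) : ℝ) : ℂ) := sorry

/-! ### Part B: pinching and concavity (file `PartB.lean`, may use Part A) -/

theorem H_le_diag {A : Matrix ι ι ℂ} (hA : A.PosSemidef) :
    H A ≤ ∑ i, Real.negMulLog (A i i).re := sorry

theorem H_concave {m : ℕ} (p : Fin m → ℝ) (hp : ∀ a, 0 ≤ p a) (h1 : ∑ a, p a = 1)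
    (A : Fin m → Matrix ι ι ℂ) (hA : ∀ a, (A a).PosSemidef) :
    ∑ a, p a * H (A a) ≤ H (∑ a, (p a : ℂ) • A a) := sorry

end basics

/-! ### Part C: real analysis (file `PartC.lean`).  Proof: integrate over `(0, R)`,
`∫ log (y + l) = (R + l) log (R + l) - l log l - R`, then `R → ∞`. -/

theorem sum_negMulLog_nonneg {α : Type} [Fintype α] (ε l : α → ℝ) (hl : ∀ i, 0 ≤ l i)
    (h0 : ∑ i, ε i = 0) (h1 : ∑ i, ε i * l i = 0)
    (h : ∀ y : ℝ, 0 < y → 0 ≤ ∑ i, ε i * Real.log (y + l i)) :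
    0 ≤ ∑ i, ε i * Real.negMulLog (l i) := sorry

/-! ### Part D: determinant inequality (file `PartD.lean`).
Proof for `s > 0`: with `Q = s P1⁻¹ s`, `N = P2`:
`det (N + Q) / det N ≥ ∏ (1 + 1 / ((Q⁻¹) k k * N k k))` by induction on the size, Schur
complement with respect to the last index:
`Q = [[Q', c], [c†, q]]`, `N = [[N', e], [e†, n]]`, `χ = c† Q'⁻¹ c`, `ε = e† N'⁻¹ e`,
`(c + e)† (N' + Q')⁻¹ (c + e) ≤ χ + ε`,
`n (n - ε + q - χ) ≥ (n - ε) (n + q - χ)`, `(Q⁻¹)_{last} = 1 / (q - χ)`,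
`(Q⁻¹) k k ≥ (Q'⁻¹) k k`; then `s ≥ 0` by continuity. -/

theorem det_ineq {ι : Type} [Fintype ι] [DecidableEq ι] {P1 P2 : Matrix ι ι ℂ}
    (h1 : P1.PosDef) (h2 : P2.PosDef) (s : ι → ℝ) (hs : ∀ k, 0 ≤ s k) :
    P2.det.re * ∏ k, (1 + s k ^ 2 / ((P1 k k).re * (P2 k k).re)) ≤
      (P2 + diagonal (fun k => (s k : ℂ)) * P1⁻¹ * diagonal (fun k => (s k : ℂ))).det.re := sorry

/-! ### Part E1, E2, E3: scalar inequalities (files `PartE1.lean`, `PartE2.lean`, `PartE3.lean`) -/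

/-- E1 (easy) -/
theorem H2_mono {T d d' : ℝ} (hT : 0 ≤ T) (hd : 0 ≤ d) (h : d ≤ d') (h' : 4 * d' ≤ T ^ 2) :
    H2 T d ≤ H2 T d' := sorry

/-- E1 (easy): homogeneity -/
theorem H2_smul {t T d : ℝ} (ht : 0 ≤ t) (hT : 0 ≤ T) (hd : 0 ≤ d) (h : 4 * d ≤ T ^ 2) :
    H2 (t * T) (t ^ 2 * d) = t * H2 T d + Real.negMulLog t * T := sorry

/-- E2: subadditivity of `W(x,y,z) = H2 (x+y+z) (yz) - η x - η y - η z`
(homogeneous of degree 1 and convex on the positive orthant). Hessian restricted to `(y, z)`: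
with `T = x+y+z`, `d = yz`, `D² = T² - 4d`, `Λ = (log λ₊ - log λ₋)/(λ₊ - λ₋)`:
`W_yy = x (T - 2dΛ) / (y D²)`, `W_zz = x (T - 2dΛ) / (z D²)`, `W_yz = x (TΛ - 2) / D²`;
positive semidefinite iff `T - 2dΛ ≥ √d (TΛ - 2)`, and with `λ± = √d e^{±u}` this is `sinh u ≥ u`. -/
theorem W_subadd {α : Type} [Fintype α] (x y z : α → ℝ) (hx : ∀ k, 0 ≤ x k)
    (hy : ∀ k, 0 ≤ y k) (hz : ∀ k, 0 ≤ z k) :
    H2 (∑ k, x k + ∑ k, y k + ∑ k, z k) ((∑ k, y k) * ∑ k, z k)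
      - Real.negMulLog (∑ k, x k) - Real.negMulLog (∑ k, y k) - Real.negMulLog (∑ k, z k) ≤
    ∑ k, (H2 (x k + y k + z k) (y k * z k)
      - Real.negMulLog (x k) - Real.negMulLog (y k) - Real.negMulLog (z k)) := sorry

/-- E3: subadditivity of `fh` = convexity of `q ↦ H2 1 (dl γ ν (1-q) q)` on `[0,1]`.
Proof: `dl γ ν (1-q) q = γ(1-γ)(q-ν)² + γν(1-ν)`, its square root is convex in `q`, and
`C ↦ H2 1 (C²/4)` is increasing and convex on `[0,1]`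
(derivative `√(1-s²) artanh s / s`, `s = √(1-C²)`, decreasing in `s` because `artanh s ≥ s`). -/
theorem fh_subadd {γ ν : ℝ} (hγ : 0 ≤ γ) (hγ1 : γ ≤ 1) (hν : 0 ≤ ν) (hν1 : ν ≤ 1)
    {α : Type} [Fintype α] (x y : α → ℝ) (hx : ∀ k, 0 ≤ x k) (hy : ∀ k, 0 ≤ y k) :
    fh γ ν (∑ k, x k) (∑ k, y k) ≤ ∑ k, fh γ ν (x k) (y k) := sorry

/-- E1: `4 dl ≤ (x+y)²` and `0 ≤ dl` -/
theorem dl_bounds {γ ν x y : ℝ} (hγ : 0 ≤ γ) (hγ1 : γ ≤ 1) (hν : 0 ≤ ν) (hν1 : ν ≤ 1)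
    (hx : 0 ≤ x) (hy : 0 ≤ y) : 0 ≤ dl γ ν x y ∧ 4 * dl γ ν x y ≤ (x + y) ^ 2 := sorry

/-! ### Part F: singular value decomposition (file `PartF.lean`).  Columns of `A V`, `V` an
eigenbasis of `A† A`; `Orthonormal.exists_orthonormalBasis_extension_of_card_eq`. -/

theorem exists_svd {ι : Type} [Fintype ι] [DecidableEq ι] (A : Matrix ι ι ℂ) :
    ∃ (U V : Matrix ι ι ℂ) (s : ι → ℝ), Uᴴ * U = 1 ∧ Vᴴ * V = 1 ∧ (∀ i, 0 ≤ s i) ∧
      A = U * diagonal (fun i => (s i : ℂ)) * Vᴴ := sorry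

section key

variable {ι κ : Type} [Fintype ι] [DecidableEq ι] [Fintype κ] [DecidableEq κ]

/-! ### Part K1: key lemma, diagonal first block (file `PartK1.lean`, uses A, C, D, E2).
With `P = b b†`, `P' = c† c`, for `y > 0`:
`det (y + M M†) = det (y + P) det (y + P' + y s (y + P)⁻¹ s)`, hence by `det_ineq` (with `√y s`)
`log det (y + M M†) ≥ log det (y+P) + log det (y+P') + ∑ log (1 + y s²/((y+P_kk)(y+P'_kk)))`,
`(y+P_kk)(y+P'_kk) + y s² = (y+λ₊)(y+λ₋)`; Part C gives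
`H (M M†) ≥ H P + H P' + ∑ (H2 (s²+P_kk+P'_kk) (P_kk P'_kk) - η P_kk - η P'_kk)`; then E2. -/

theorem key_diag (s : ι → ℝ) (hs : ∀ i, 0 ≤ s i) (b c : Matrix ι ι ℂ) :
    H2 (nsq (diagonal fun i => (s i : ℂ)) + nsq b + nsq c) (nsq b * nsq c)
      + Ent (diagonal fun i => (s i : ℂ)) + Ent b + Ent c ≤
    H (fromBlocks (diagonal fun i => (s i : ℂ)) b c 0 *
      (fromBlocks (diagonal fun i => (s i : ℂ)) b c 0)ᴴ) := sorry

/-! ### Part K2: key lemma in general (file `PartK2.lean`, uses A, F, K1): first square blocks by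
the singular value decomposition of `a` (multiply by block unitaries), then rectangular blocks by
padding with isometries `E X E†` and `H_mul_comm`. -/

theorem key (a b c : Matrix ι κ ℂ) :
    H2 (nsq a + nsq b + nsq c) (nsq b * nsq c) + Ent a + Ent b + Ent c ≤
      H (fromBlocks a b c 0 * (fromBlocks a b c 0)ᴴ) := sorry

/-! ### Part R: two Kraus operators (file `PartR.lean`, uses A, E1, key).
Find unit vectors `e, g ∈ ℂ²` with `e0 k1 g0 + e1 k4 g1 = 0`, `e0 k3 g1 + e1 k2 g0 = 0`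
(`k1 k2 g0² = k3 k4 g1²`), complete to scalar unitaries `U, V` so that the `(2,2)` block of
`U M V` vanishes, `U M V = [[c1, c2], [c3, 0]]` with `c_j = l_j a + l'_j b`.
Determinants: `l_2 l_3 = -ω k1 k4`, `l'_2 l'_3 = ω k2 k3`, `l_2 l'_3 + l'_2 l_3 = 0`, `|ω| = 1`;
as `tr (a b†)` is real and `|tr (a b†)|² ≤ nsq a nsq b`,
`nsq c2 * nsq c3 ≥ |k1 k4 nsq a - k2 k3 nsq b|²`; then `key` and `H2_mono`. -/

theorem rank_two {k1 k2 k3 k4 : ℂ} (h14 : ‖k1‖ ^ 2 + ‖k4‖ ^ 2 = 1) (h23 : ‖k2‖ ^ 2 + ‖k3‖ ^ 2 = 1)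
    (a b : Matrix ι κ ℂ) (hab : (a * bᴴ).trace.im = 0) :
    ∃ l l' : Fin 3 → ℂ, ∑ j, ‖l j‖ ^ 2 = 1 ∧ ∑ j, ‖l' j‖ ^ 2 = 1 ∧
      ∑ j, l j * (starRingEnd ℂ) (l' j) = 0 ∧
      H2 (nsq a + nsq b) (‖k1 * k4 * (nsq a : ℂ) - k2 * k3 * (nsq b : ℂ)‖ ^ 2)
        + ∑ j, Ent (l j • a + l' j • b) ≤
      H (fromBlocks (k1 • a) (k3 • b) (k2 • b) (k4 • a) *
        (fromBlocks (k1 • a) (k3 • b) (k2 • b) (k4 • a))ᴴ) := sorry

/-! ### Part S: one step for the GADC (file `PartS.lean`, uses A, B, R).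
Rotate the phase of `b` so that `tr (a b†)` is real. Then
`tau = (M₊ M₊† + M₋ M₋†)/2` with `M± = [[k1 a, k3 b], [k2 b, k4 a]]`, `k4 = √(γν)`,
`k3 = ∓ i √(γ(1-ν))`, `k2 = √(1-γ(1-ν))`, `k1 = (√(1-γ) ± i ω)/k2`, `ω = γ√(ν(1-ν))`
(if `k2 = 0` then `γ = 1`, `ν = 0`: take `k1 = 1`), `|k1 k4 x - k2 k3 y|² = dl γ ν x y`.
`H_concave` with weights 1/2, and `Ent (t • a) = t² Ent a`. -/

theorem onestep {γ ν : ℝ} (hγ : 0 ≤ γ) (hγ1 : γ ≤ 1) (hν : 0 ≤ ν) (hν1 : ν ≤ 1)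
    (a b : Matrix ι κ ℂ) :
    ∃ l l' : Fin 6 → ℂ, ∑ j, ‖l j‖ ^ 2 = 1 ∧ ∑ j, ‖l' j‖ ^ 2 = 1 ∧
      ∑ j, l j * (starRingEnd ℂ) (l' j) = 0 ∧
      H2 (nsq a + nsq b) (dl γ ν (nsq a) (nsq b)) + ∑ j, Ent (l j • a + l' j • b) ≤
        H (tau γ ν a b) := sorry

end key

/-! ### Part G: Kraus operators / environment (file `PartG.lean`) -/

/-- Kraus operators of the channel -/
noncomputable def kraus (γ ν : ℝ) : Fin 4 → Matrix (Fin 2) (Fin 2) ℂ :=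
  ![((Real.sqrt (1 - ν) : ℝ) : ℂ) • !![1, 0; 0, ((Real.sqrt (1 - γ) : ℝ) : ℂ)],
    ((Real.sqrt (1 - ν) : ℝ) : ℂ) • !![0, ((Real.sqrt γ : ℝ) : ℂ); 0, 0],
    ((Real.sqrt ν : ℝ) : ℂ) • !![((Real.sqrt (1 - γ) : ℝ) : ℂ), 0; 0, 1],
    ((Real.sqrt ν : ℝ) : ℂ) • !![0, 0; ((Real.sqrt γ : ℝ) : ℂ), 0]]

/-- output-environment matrix of the isometric dilation applied to `ψ` -/
noncomputable def env (γ ν : ℝ) (n : ℕ) (ψ : (Fin n → Fin 2) → ℂ) :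
    Matrix (Fin n → Fin 2) (Fin n → Fin 4) ℂ :=
  Matrix.of fun i k => ∑ j, (∏ s, kraus γ ν (k s) (i s) (j s)) * ψ j

theorem env_mul_env {γ ν : ℝ} (hγ : 0 ≤ γ) (hγ1 : γ ≤ 1) (hν : 0 ≤ ν) (hν1 : ν ≤ 1) (n : ℕ)
    (ψ φ : (Fin n → Fin 2) → ℂ) :
    env γ ν n ψ * (env γ ν n φ)ᴴ = tpow (gad γ ν) n (vecMulVec ψ (star φ)) := sorry

theorem env_lin (γ ν : ℝ) (n : ℕ) (l l' : ℂ) (ψ φ : (Fin n → Fin 2) → ℂ) :
    env γ ν n (l • ψ + l' • φ) = l • env γ ν n ψ + l' • env γ ν n φ := sorry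

theorem nsq_env {γ ν : ℝ} (hγ : 0 ≤ γ) (hγ1 : γ ≤ 1) (hν : 0 ≤ ν) (hν1 : ν ≤ 1) (n : ℕ)
    (ψ : (Fin n → Fin 2) → ℂ) : nsq (env γ ν n ψ) = ∑ i, ‖ψ i‖ ^ 2 := sorry

/-- splitting off the first site -/
def splitEquiv (n : ℕ) : (Fin n → Fin 2) ⊕ (Fin n → Fin 2) ≃ (Fin (n + 1) → Fin 2) where
  toFun := Sum.elim (fun i => Fin.cons 0 i) (fun i => Fin.cons 1 i)
  invFun i := if i 0 = 0 then Sum.inl (Fin.tail i) else Sum.inr (Fin.tail i)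
  left_inv := by
    rintro (i | i) <;> simp
  right_inv := by
    intro i
    by_cases h : i 0 = 0
    · simp only [h, if_true, Sum.elim_inl]
      conv_rhs => rw [← Fin.cons_self_tail i]
      rw [h]
    · have h1 : i 0 = 1 := by omega
      simp only [h, if_false, Sum.elim_inr]
      conv_rhs => rw [← Fin.cons_self_tail i]
      rw [h1]

theorem tpow_succ {γ ν : ℝ} (hγ : 0 ≤ γ) (hγ1 : γ ≤ 1) (hν : 0 ≤ ν) (hν1 : ν ≤ 1) (n : ℕ)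
    (ψ : (Fin (n + 1) → Fin 2) → ℂ) :
    (tpow (gad γ ν) (n + 1) (proj ψ)).submatrix (splitEquiv n) (splitEquiv n) =
      tau γ ν (env γ ν n fun i => ψ (Fin.cons 0 i)) (env γ ν n fun i => ψ (Fin.cons 1 i)) := sorry

/-! ### Part I: induction over the sites (file `PartI.lean`, uses A, E3, G, S) -/

theorem main_ind {γ ν : ℝ} (hγ : 0 ≤ γ) (hγ1 : γ ≤ 1) (hν : 0 ≤ ν) (hν1 : ν ≤ 1) (n : ℕ)
    (ψ : (Fin n → Fin 2) → ℂ) :
    ∑ s, fh γ ν (wt ψ s 0) (wt ψ s 1) ≤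
      H (tpow (gad γ ν) n (proj ψ)) - Real.negMulLog (∑ i, ‖ψ i‖ ^ 2) := sorry

/-- excited population at site `s` -/
noncomputable def pop {n : ℕ} (ρ : Matrix (Fin n → Fin 2) (Fin n → Fin 2) ℂ) (s : Fin n) : ℝ :=
  ∑ i : Fin n → Fin 2, if i s = 1 then (ρ i i).re else 0

/-! ### Part J: mixed inputs (file `PartJ.lean`, uses A, B, E3, I): spectral decomposition of `ρ`,
`H_concave`, `main_ind` for unit vectors, `fh_subadd` (or Jensen). -/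

theorem density_lower {γ ν : ℝ} (hγ : 0 ≤ γ) (hγ1 : γ ≤ 1) (hν : 0 ≤ ν) (hν1 : ν ≤ 1) (n : ℕ)
    (ρ : Matrix (Fin n → Fin 2) (Fin n → Fin 2) ℂ) (hρ : IsDensity ρ) :
    ∑ s, H2 1 (dl γ ν (1 - pop ρ s) (pop ρ s)) ≤ H (tpow (gad γ ν) n ρ) := sorry

/-! ### Part L: classical subadditivity (file `PartL.lean`) -/

theorem shannon {n : ℕ} (p : (Fin n → Fin 2) → ℝ) (hp : ∀ i, 0 ≤ p i) (h1 : ∑ i, p i = 1) :
    ∑ i, Real.negMulLog (p i) ≤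
      ∑ s, Real.binEntropy (∑ i : Fin n → Fin 2, if i s = 1 then p i else 0) := sorry

/-! ### Part M: the tensor power is a channel (file `PartM.lean`, uses G) -/

theorem tpow_add (Φ : Matrix (Fin 2) (Fin 2) ℂ → Matrix (Fin 2) (Fin 2) ℂ) {n m : ℕ}
    (p : Fin m → ℂ) (ρ : Fin m → Matrix (Fin n → Fin 2) (Fin n → Fin 2) ℂ) :
    tpow Φ n (∑ a, p a • ρ a) = ∑ a, p a • tpow Φ n (ρ a) := sorry

theorem tpow_posSemidef {γ ν : ℝ} (hγ : 0 ≤ γ) (hγ1 : γ ≤ 1) (hν : 0 ≤ ν) (hν1 : ν ≤ 1) {n : ℕ}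
    {ρ : Matrix (Fin n → Fin 2) (Fin n → Fin 2) ℂ} (hρ : ρ.PosSemidef) :
    (tpow (gad γ ν) n ρ).PosSemidef := sorry

theorem tpow_trace {γ ν : ℝ} (n : ℕ) (ρ : Matrix (Fin n → Fin 2) (Fin n → Fin 2) ℂ) :
    (tpow (gad γ ν) n ρ).trace = ρ.trace := sorry

theorem pop_tpow {γ ν : ℝ} {n : ℕ} (ρ : Matrix (Fin n → Fin 2) (Fin n → Fin 2) ℂ)
    (hρ : ρ.trace = 1) (s : Fin n) :
    pop (tpow (gad γ ν) n ρ) s = (1 - γ) * pop ρ s + γ * ν := sorry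

/-! ### Part U: upper bound (file `PartU.lean`, uses A, B, E3, J, L, M) -/

theorem vnEntropy_eq {ι : Type} [Fintype ι] [DecidableEq ι] {A : Matrix ι ι ℂ}
    (hA : A.IsHermitian) : vnEntropy A = H A / Real.log 2 := sorry

theorem upper {γ ν : ℝ} (hγ : 0 ≤ γ) (hγ1 : γ ≤ 1) (hν : 0 ≤ ν) (hν1 : ν ≤ 1) (n : ℕ) {x R : ℝ}
    (hx : x ∈ holevoSet γ ν n) (hR : ∀ q ∈ Set.Icc (0 : ℝ) 1, rate γ ν q ≤ R) :
    x ≤ n * (R / Real.log 2) := sorry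

/-! ### Part O: achievability (file `PartO.lean`, uses A, B, M).  The `2 ^ n` product states with
tensor factors `√(1-q) |0⟩ ± √q |1⟩`, equal weights: the average output is diagonal, the entropy
of each output is at most `n * H2 1 (dl ..)` by `H_le_diag` after a product unitary
(or use `A_i` qubit states: entropy of a tensor product). -/

theorem lower {γ ν : ℝ} (hγ : 0 ≤ γ) (hγ1 : γ ≤ 1) (hν : 0 ≤ ν) (hν1 : ν ≤ 1) (n : ℕ) {q : ℝ}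
    (hq : q ∈ Set.Icc (0 : ℝ) 1) :
    ∃ x ∈ holevoSet γ ν n, n * (rate γ ν q / Real.log 2) ≤ x := sorry

/-! ### Part Z: final assembly -/

theorem rate_continuous (γ ν : ℝ) : Continuous (rate γ ν) := sorry

theorem final {γ ν : ℝ} (hγ : 0 ≤ γ) (hγ1 : γ ≤ 1) (hν : 0 ≤ ν) (hν1 : ν ≤ 1) :
    ∃ χ : ℝ, IsGreatest ((fun q => rate γ ν q / Real.log 2) '' Set.Icc 0 1) χ ∧
      (∀ n : ℕ, 1 ≤ n → IsLUB (holevoSet γ ν n) (n * χ)) ∧
      IsLUB {x | ∃ n : ℕ, 1 ≤ n ∧ ∃ c, IsLUB (holevoSet γ ν n) c ∧ x = c / n} χ := sorry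

end Vale.Agent.GAD
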